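import Vale.Agent.Results.P037.A_main
import Vale.Agent.Results.P037.B_dexp

open Vale.Agent.Lib.P037 in
/-- Both removal theorems for ordered binary matrices in one statement. (1) Polynomial removal for
every `2 × 2` pattern. (2) For every pattern size `k`, double exponential removal with a constant
`C = C(k)` uniform in the `k × k` pattern `H`. -/
theorem Vale.Agent.Results.P037.AAA_union.result :
    (∀ H : Fin 2 → Fin 2 → Bool,
      ∃ (c : ℝ) (C : ℕ), 0 < c ∧ 0 < C ∧ ∀ n : ℕ, 1 ≤ n → ∀ ε : ℝ, 0 < ε → ε < 1 →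
        ∀ A : Fin n → Fin n → Bool, FarFromFree H ε A →
          c * ε ^ C * (n : ℝ) ^ (2 * 2) ≤ (orderedCopies H A : ℝ)) ∧
    (∀ k : ℕ,
      ∃ C : ℕ, 0 < C ∧ ∀ (H : Fin k → Fin k → Bool) (n : ℕ), 1 ≤ n → ∀ ε : ℝ, 0 < ε → ε < 1 →
        ∀ A : Fin n → Fin n → Bool, FarFromFree H ε A →
          Real.exp (-Real.exp ((C : ℝ) / ε ^ C)) * (n : ℝ) ^ (2 * k) ≤ (orderedCopies H A : ℝ)) :=
  ⟨Vale.Agent.Results.P037.A_main.result, Vale.Agent.Results.P037.B_dexp.result⟩
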